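import Vale.Agent.P319.S2.H510.Defs
import Vale.Agent.P319.SC.H235.TripleEnd

/-! P319, block S2, piece 7: the step of the potential. -/

namespace Vale.Agent.P319.S2.H807

open Finset Matrix Vale.Agent.P319.SC Vale.Agent.P319.SC.H323 Vale.Agent.P319.SC.H235
  Vale.Agent.P319.S2

set_option linter.all false

variable {V ι : Type} [Fintype V] [DecidableEq V] [DecidableEq ι] {k : ℕ}

theorem sum_tr (𝒟 : Cfg V ι k) (hk : 3 ≤ k) (F : V → V → V → ℝ) (hF : Inv3F 𝒟 F)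
    {v a v' a' : V} (h : 𝒟.c2 v a = 𝒟.c2 v' a') : ∑ b, F v a b = ∑ b, F v' a' b := by
  obtain ⟨e, he⟩ := 𝒟.ext2 hk h
  rw [← Equiv.sum_comp e fun b => F v' a' b]
  exact Finset.sum_congr rfl fun b _ => hF _ _ _ _ _ _ (he b)

theorem sum_row (𝒟 : Cfg V ι k) (hk : 3 ≤ k) (F : V → V → V → ℝ) (hF : Inv3F 𝒟 F) {v₀ x₁ : V}
    (h0 : ∀ x y, F v₀ x y ≠ 0 → 𝒟.c2 v₀ x = 𝒟.c2 v₀ x₁) :
    ∑ x, ∑ y, F v₀ x y = (𝒟.val v₀ (𝒟.c2 v₀ x₁) : ℝ) * ∑ y, F v₀ x₁ y := by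
  rw [Cfg.val, ← nsmul_eq_mul, ← Finset.sum_const, Finset.sum_filter]
  refine Finset.sum_congr rfl fun x _ => ?_
  split_ifs with h
  · exact sum_tr 𝒟 hk F hF h
  · refine Finset.sum_eq_zero fun y _ => ?_
    by_contra h1
    exact h (h0 x y h1)

theorem chi_ne {p : Prop} (h : chi p ≠ 0) : p := by
  by_contra h1
  exact h (chi_neg h1)

/-- the number of points of the class of `y₁` over `v₀` seen from `x₁` in the colour `τ` -/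
noncomputable def NN (𝒟 : Cfg V ι k) (v₀ x₁ y₁ : V) (τ : ι) : ℝ :=
  ((univ.filter fun t => 𝒟.c2 v₀ t = 𝒟.c2 v₀ y₁ ∧ 𝒟.c2 x₁ t = τ).card : ℝ)

/-- mixing -/
theorem mixN (𝒟 : Cfg V ι k) (hk : 3 ≤ k) {D : ℕ} (hD : BigRank 𝒟 D) {v₀ x₁ y₁ z : V}
    (hz : 𝒟.c1 z = 𝒟.c1 y₁) {p p' p₁ p'₁ q : ℝ} (hp : p = (𝒟.cls (𝒟.c1 x₁)).card)
    (hp' : p' = (𝒟.cls (𝒟.c1 y₁)).card) (hp₁ : p₁ = (𝒟.val v₀ (𝒟.c2 v₀ x₁) : ℝ))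
    (hp'₁ : p'₁ = (𝒟.val v₀ (𝒟.c2 v₀ y₁) : ℝ)) (hq : q = (𝒟.val x₁ (𝒟.c2 x₁ z) : ℝ)) :
    (D : ℝ) * (p₁ * (NN 𝒟 v₀ x₁ y₁ (𝒟.c2 x₁ z) - q * p'₁ / p')) ^ 2 ≤ (p * q) * (p₁ * p'₁) := by
  have hp0 : 0 < p := by rw [hp]; exact_mod_cast 𝒟.cls_pos x₁
  have hp'0 : 0 < p' := by rw [hp']; exact_mod_cast 𝒟.cls_pos y₁
  have hτ : 𝒟.c2 x₁ z ∈ 𝒟.rels (𝒟.c1 x₁) (𝒟.c1 y₁) :=
    (𝒟.mem_rels _ _ _).2 ⟨x₁, z, rfl, hz, rfl⟩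
  have key := mix 𝒟 hk hD (𝒟.inv2_ind (K := ℝ) (𝒟.c2 x₁ z)) (𝒟.c1 x₁) (𝒟.c1 y₁)
    (𝒟.ind ℝ (𝒟.c2 v₀ x₁) v₀) (𝒟.ind ℝ (𝒟.c2 v₀ y₁) v₀)
  simp only [ind_sq] at key
  rw [sum_ind_cls 𝒟 (by omega) rfl hτ, sum_ind_row 𝒟 (by omega), sum_ind_row 𝒟 (by omega),
    ← hp, ← hp', ← hp₁, ← hp'₁, ← hq] at key
  have hN : ∑ x ∈ 𝒟.cls (𝒟.c1 x₁), ∑ y ∈ 𝒟.cls (𝒟.c1 y₁), 𝒟.ind ℝ (𝒟.c2 v₀ x₁) v₀ x *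
        𝒟.ind ℝ (𝒟.c2 x₁ z) x y * 𝒟.ind ℝ (𝒟.c2 v₀ y₁) v₀ y =
      ∑ x, ∑ y, F1 𝒟 (𝒟.c2 v₀ x₁) (𝒟.c2 v₀ y₁) (𝒟.c2 x₁ z) v₀ x y := by
    have h1 : ∀ x, ∑ y ∈ 𝒟.cls (𝒟.c1 y₁), 𝒟.ind ℝ (𝒟.c2 v₀ x₁) v₀ x *
        𝒟.ind ℝ (𝒟.c2 x₁ z) x y * 𝒟.ind ℝ (𝒟.c2 v₀ y₁) v₀ y =
        ∑ y, F1 𝒟 (𝒟.c2 v₀ x₁) (𝒟.c2 v₀ y₁) (𝒟.c2 x₁ z) v₀ x y := by
      intro x
      rw [← Finset.sum_subset (Finset.subset_univ (𝒟.cls (𝒟.c1 y₁)))]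
      · exact Finset.sum_congr rfl fun y _ => by rw [F1]; ring
      · intro y _ hy1
        by_contra h
        exact hy1 ((𝒟.mem_cls _ _).2 (𝒟.c1_of_c2 (by omega) (F1_ne 𝒟 h).2.1).2)
    simp only [h1]
    refine Finset.sum_subset (Finset.subset_univ _) fun x _ hx1 => ?_
    refine Finset.sum_eq_zero fun y _ => ?_
    by_contra h
    exact hx1 ((𝒟.mem_cls _ _).2 (𝒟.c1_of_c2 (by omega) (F1_ne 𝒟 h).1).2)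
  have hN2 : ∑ y, F1 𝒟 (𝒟.c2 v₀ x₁) (𝒟.c2 v₀ y₁) (𝒟.c2 x₁ z) v₀ x₁ y =
      NN 𝒟 v₀ x₁ y₁ (𝒟.c2 x₁ z) := by
    rw [NN, Finset.card_filter, Nat.cast_sum]
    refine Finset.sum_congr rfl fun y _ => ?_
    rw [F1_eq]
    by_cases h1 : 𝒟.c2 v₀ y = 𝒟.c2 v₀ y₁ <;> by_cases h2 : 𝒟.c2 x₁ y = 𝒟.c2 x₁ z <;>
      simp [h1, h2]
  rw [hN, sum_row 𝒟 hk _ (fun v x y v' x' y' h => F1_inv 𝒟 hk _ _ _ v x y v' x' y' h)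
    (fun x y h => (F1_ne 𝒟 h).1), hN2, ← hp₁] at key
  have e : p * q / (p * p') * (p₁ * p'₁) = p₁ * (q * p'₁ / p') := by
    field_simp
  rw [e, ← mul_sub] at key
  exact key

/-- the numbers with a label -/
noncomputable def NL (𝒟 : Cfg V ι k) (lam : V → V → V → ZMod 3) (v₀ x₁ y₁ : V) (ε : ZMod 3)
    (τ : ι) : ℝ :=
  ((univ.filter fun t => 𝒟.c2 v₀ t = 𝒟.c2 v₀ y₁ ∧ 𝒟.c2 x₁ t = τ ∧ lam v₀ x₁ t = ε).card : ℝ)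

theorem sum_NL (𝒟 : Cfg V ι k) (lam : V → V → V → ZMod 3) (v₀ x₁ y₁ : V) (τ : ι) :
    ∑ ε : ZMod 3, NL 𝒟 lam v₀ x₁ y₁ ε τ = NN 𝒟 v₀ x₁ y₁ τ := by
  unfold NL NN
  rw [← Nat.cast_sum]
  congr 1
  rw [Finset.card_eq_sum_card_fiberwise (f := fun t => lam v₀ x₁ t) (t := univ)
    (fun z _ => mem_coe.2 (mem_univ _))]
  refine Finset.sum_congr rfl fun ε _ => ?_
  congr 1
  ext t
  simp only [mem_filter, mem_univ, true_and]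
  tauto

/-- the function of the star inequality -/
noncomputable def GG (𝒟 : Cfg V ι k) (Rr : V → V → Prop) (lam : V → V → V → ZMod 3) (α β : ι)
    (ε : ZMod 3) (v x y : V) : ℝ :=
  chi (𝒟.c2 v x = α) * chi (𝒟.c2 v y = β) * ff Rr lam ε v x y

theorem ff_inv (𝒟 : Cfg V ι k) (hk : 3 ≤ k) {Rr : V → V → Prop} (hR : Inv2R 𝒟 Rr)
    {lam : V → V → V → ZMod 3} (hl : Inv3F 𝒟 lam) (ε : ZMod 3) : Inv3F 𝒟 (ff Rr lam ε) := by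
  intro v x y v' x' y' h
  have h1 := 𝒟.c3_sub hk h
  unfold ff
  rw [hl _ _ _ _ _ _ h, chi_congr (p := Rr v x ∧ Rr x y ∧ Rr y v)
    (and_congr (hR _ _ _ _ h1.1) (and_congr (hR _ _ _ _ h1.2.2)
      (hR _ _ _ _ (𝒟.c2_swap (by omega) h1.2.1))))]

theorem GG_inv (𝒟 : Cfg V ι k) (hk : 3 ≤ k) {Rr : V → V → Prop} (hR : Inv2R 𝒟 Rr)
    {lam : V → V → V → ZMod 3} (hl : Inv3F 𝒟 lam) (α β : ι) (ε : ZMod 3) :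
    Inv3F 𝒟 (GG 𝒟 Rr lam α β ε) := by
  intro v x y v' x' y' h
  have h1 := 𝒟.c3_sub hk h
  unfold GG
  rw [ff_inv 𝒟 hk hR hl ε _ _ _ _ _ _ h, h1.1, h1.2.1]

theorem GG_ne {𝒟 : Cfg V ι k} {Rr : V → V → Prop} {lam : V → V → V → ZMod 3} {α β : ι}
    {ε : ZMod 3} {v x y : V} (h : GG 𝒟 Rr lam α β ε v x y ≠ 0) :
    𝒟.c2 v x = α ∧ 𝒟.c2 v y = β :=
  ⟨chi_ne (left_ne_zero_of_mul (left_ne_zero_of_mul h)),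
    chi_ne (right_ne_zero_of_mul (left_ne_zero_of_mul h))⟩

/-- double counting -/
theorem dcN (𝒟 : Cfg V ι k) (hk : 3 ≤ k) {Rr : V → V → Prop} (hR : Inv2R 𝒟 Rr)
    {lam : V → V → V → ZMod 3} (hl : Inv3F 𝒟 lam) {v₀ x₁ y₁ z : V} (hx : 𝒟.c1 x₁ = 𝒟.c1 v₀)
    (h1 : Rr v₀ x₁) (h2 : Rr y₁ v₀) (hz : Rr x₁ z) (ε : ZMod 3) :
    (𝒟.val x₁ (𝒟.c2 x₁ z) : ℝ) *
      ∑ v, GG 𝒟 Rr lam (𝒟.c2 v₀ x₁) (𝒟.c2 v₀ y₁) ε v x₁ z =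
    (𝒟.val v₀ (𝒟.c2 v₀ x₁) : ℝ) * (3 * NL 𝒟 lam v₀ x₁ y₁ ε (𝒟.c2 x₁ z) -
      NN 𝒟 v₀ x₁ y₁ (𝒟.c2 x₁ z)) := by
  set α := 𝒟.c2 v₀ x₁ with hα
  set β := 𝒟.c2 v₀ y₁ with hβ
  set τ := 𝒟.c2 x₁ z with hτ
  set H : V → V → V → ℝ := fun v x y => GG 𝒟 Rr lam α β ε v x y * chi (𝒟.c2 x y = τ) with hH
  have hHi : Inv3F 𝒟 H := by
    intro v x y v' x' y' h
    have h1 := 𝒟.c3_sub hk h
    simp only [hH]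
    rw [GG_inv 𝒟 hk hR hl α β ε _ _ _ _ _ _ h, h1.2.2]
  have c1 := dc 𝒟 hk H hHi (x₂ := x₁) (y₂ := z) fun v x y h => chi_ne (right_ne_zero_of_mul h)
  have c2 := dc' 𝒟 hk H hHi (v₁ := v₀) fun v x y h =>
    (𝒟.c1_of_c2 (by omega) (GG_ne (left_ne_zero_of_mul h)).1).1
  have c3 := sum_row 𝒟 hk H hHi (v₀ := v₀) (x₁ := x₁) fun x y h =>
    (GG_ne (left_ne_zero_of_mul h)).1
  rw [c1, c3, hx] at c2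
  have hp0 : (0 : ℝ) < (𝒟.cls (𝒟.c1 v₀)).card := by exact_mod_cast 𝒟.cls_pos v₀
  push_cast at c2
  have c4 : (𝒟.val x₁ (𝒟.c2 x₁ z) : ℝ) * ∑ v, H v x₁ z =
      (𝒟.val v₀ (𝒟.c2 v₀ x₁) : ℝ) * ∑ y, H v₀ x₁ y := by
    refine mul_left_cancel₀ hp0.ne' ?_
    rw [← mul_assoc]
    exact c2
  have e1 : ∑ v, H v x₁ z = ∑ v, GG 𝒟 Rr lam α β ε v x₁ z := by
    refine Finset.sum_congr rfl fun v _ => ?_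
    simp only [hH]
    rw [chi_pos hτ.symm, mul_one]
  have e2 : ∑ y, H v₀ x₁ y = 3 * NL 𝒟 lam v₀ x₁ y₁ ε τ - NN 𝒟 v₀ x₁ y₁ τ := by
    rw [NL, NN, Finset.card_filter, Finset.card_filter, Nat.cast_sum, Nat.cast_sum,
      Finset.mul_sum, ← Finset.sum_sub_distrib]
    refine Finset.sum_congr rfl fun y _ => ?_
    simp only [hH, GG, ff]
    rw [chi_pos hα.symm, one_mul]
    by_cases g1 : 𝒟.c2 v₀ y = β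
    · by_cases g2 : 𝒟.c2 x₁ y = τ
      · have g3 : Rr v₀ x₁ ∧ Rr x₁ y ∧ Rr y v₀ :=
          ⟨h1, (hR _ _ _ _ g2).2 hz, (hR _ _ _ _ (𝒟.c2_swap (by omega) g1)).2 h2⟩
        rw [chi_pos g1, chi_pos g2, chi_pos g3]
        by_cases g4 : lam v₀ x₁ y = ε
        · rw [chi_pos g4, if_pos ⟨g1, g2, g4⟩, if_pos ⟨g1, g2⟩]; norm_num
        · rw [chi_neg g4, if_neg (fun h => g4 h.2.2), if_pos ⟨g1, g2⟩]; norm_num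
      · rw [chi_neg g2, if_neg (fun h => g2 h.2.1), if_neg (fun h => g2 h.2)]; norm_num
    · rw [chi_neg g1, if_neg (fun h => g1 h.1), if_neg (fun h => g1 h.1)]; norm_num
  rw [e1, e2] at c4
  exact c4

/-- the inner sum over `v` depends on the colour of the pair only; the sum over the pairs -/
theorem sumsq (𝒟 : Cfg V ι k) (hk : 3 ≤ k) (F : V → V → V → ℝ) (hF : Inv3F 𝒟 F) {x₁ : V} (σ : ι) :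
    ∑ z ∈ 𝒟.cls (𝒟.c1 x₁), ∑ t ∈ 𝒟.cls σ, (∑ v, F v z t) ^ 2 =
      ((𝒟.cls (𝒟.c1 x₁)).card : ℝ) * ∑ t ∈ 𝒟.cls σ, (∑ v, F v x₁ t) ^ 2 := by
  rw [← nsmul_eq_mul, ← Finset.sum_const]
  refine Finset.sum_congr rfl fun z hz => ?_
  obtain ⟨e, he⟩ := 𝒟.ext1 (by omega) ((𝒟.mem_cls _ _).1 hz)
  have h1 : ∀ t, (∑ v, F v z t) = ∑ v, F v x₁ (e t) := fun t => sum_third 𝒟 hk F hF (he t)
  simp only [h1]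
  rw [Cfg.cls, Finset.sum_filter, Finset.sum_filter,
    ← Equiv.sum_comp e fun t => if 𝒟.c1 t = σ then (∑ v, F v x₁ t) ^ 2 else 0]
  refine Finset.sum_congr rfl fun t _ => ?_
  rw [(𝒟.c1_of_c2 (by omega) (he t)).2]

/-- the part below `Rr` -/
noncomputable def rr (𝒟 : Cfg V ι k) (Rr : V → V → Prop) (x₁ : V) (τ : ι) : ℝ :=
  chi (∃ t, 𝒟.c2 x₁ t = τ ∧ Rr x₁ t)

theorem rr_eq (𝒟 : Cfg V ι k) {Rr : V → V → Prop} (hR : Inv2R 𝒟 Rr) (x₁ z : V) :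
    rr 𝒟 Rr x₁ (𝒟.c2 x₁ z) = chi (Rr x₁ z) :=
  chi_congr ⟨fun ⟨t, h1, h2⟩ => (hR _ _ _ _ h1).1 h2, fun h => ⟨z, rfl, h⟩⟩

/-- the sum over the class of `y₁` as a sum over the colours -/
theorem sum_col (𝒟 : Cfg V ι k) (hk : 3 ≤ k) (x₁ : V) (σ : ι) (f : ι → ℝ) :
    ∑ t ∈ 𝒟.cls σ, f (𝒟.c2 x₁ t) =
      ∑ τ ∈ (𝒟.cls σ).image (fun t => 𝒟.c2 x₁ t), (𝒟.val x₁ τ : ℝ) * f τ := by
  rw [Finset.sum_comp f fun t => 𝒟.c2 x₁ t]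
  refine Finset.sum_congr rfl fun τ hτ => ?_
  obtain ⟨z, hz, rfl⟩ := mem_image.1 hτ
  rw [nsmul_eq_mul]
  congr 2
  rw [Cfg.val]
  congr 1
  ext t
  rw [mem_filter, mem_filter, 𝒟.mem_cls]
  constructor
  · exact fun h => ⟨mem_univ _, h.2⟩
  · exact fun h => ⟨(𝒟.c1_of_c2 (by omega) h.2).2.trans ((𝒟.mem_cls _ _).1 hz), h.2⟩

/-- the new colours -/
theorem coll_fix (𝒟 : Cfg V ι (k + 1)) (hk : 3 ≤ k) {Rr : V → V → Prop} (hR : Inv2R 𝒟 Rr)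
    {lam : V → V → V → ZMod 3} (hl : Inv3F 𝒟 lam) (v₀ x₁ y₁ : V) :
    coll (𝒟.fix v₀) Rr x₁ y₁ ≤ ∑ τ ∈ (𝒟.cls (𝒟.c1 y₁)).image (fun t => 𝒟.c2 x₁ t),
      rr 𝒟 Rr x₁ τ * ∑ ε : ZMod 3, NL 𝒟 lam v₀ x₁ y₁ ε τ ^ 2 := by
  have fc1 : ∀ a, (𝒟.fix v₀).c1 a = 𝒟.c2 v₀ a := fun a => Cfg.fix_c1 (m := k) 𝒟 (by omega) v₀ a
  have fc2 : ∀ a b, (𝒟.fix v₀).c2 a b = 𝒟.c3 v₀ a b := fun a b =>
    Cfg.fix_c2 (m := k) 𝒟 (by omega) v₀ a b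
  set B := (𝒟.fix v₀).cls ((𝒟.fix v₀).c1 y₁) with hB
  have hBm : ∀ z, z ∈ B ↔ 𝒟.c2 v₀ z = 𝒟.c2 v₀ y₁ := by
    intro z
    rw [hB, Cfg.mem_cls, fc1, fc1]
  set T := (𝒟.cls (𝒟.c1 y₁)).image (fun t => 𝒟.c2 x₁ t) with hT
  have h1 : coll (𝒟.fix v₀) Rr x₁ y₁ ≤ ∑ z ∈ B, rr 𝒟 Rr x₁ (𝒟.c2 x₁ z) *
      NL 𝒟 lam v₀ x₁ y₁ (lam v₀ x₁ z) (𝒟.c2 x₁ z) := by
    unfold coll
    rw [← hB]
    refine Finset.sum_le_sum fun z hz => ?_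
    rw [rr_eq 𝒟 hR]
    refine mul_le_mul_of_nonneg_left ?_ (chi_nonneg _)
    rw [NL, Cfg.val]
    refine Nat.cast_le.2 (card_le_card fun t ht => ?_)
    rw [mem_filter, fc2, fc2] at ht
    have h2 := 𝒟.c3_sub (by omega) ht.2
    rw [mem_filter]
    exact ⟨mem_univ _, h2.2.1.trans ((hBm z).1 hz), h2.2.2, hl _ _ _ _ _ _ ht.2⟩
  refine h1.trans (le_of_eq ?_)
  have h2 : ∀ z ∈ B, (𝒟.c2 x₁ z, lam v₀ x₁ z) ∈ T ×ˢ (univ : Finset (ZMod 3)) := by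
    intro z hz
    refine mem_product.2 ⟨mem_image.2 ⟨z, ?_, rfl⟩, mem_univ _⟩
    exact (𝒟.mem_cls _ _).2 (𝒟.c1_of_c2 (by omega) ((hBm z).1 hz)).2
  rw [← Finset.sum_fiberwise_of_maps_to h2, Finset.sum_product]
  refine Finset.sum_congr rfl fun τ _ => ?_
  rw [Finset.mul_sum]
  refine Finset.sum_congr rfl fun ε _ => ?_
  have h3 : ∀ z ∈ B.filter (fun z => (𝒟.c2 x₁ z, lam v₀ x₁ z) = (τ, ε)),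
      rr 𝒟 Rr x₁ (𝒟.c2 x₁ z) * NL 𝒟 lam v₀ x₁ y₁ (lam v₀ x₁ z) (𝒟.c2 x₁ z) =
        rr 𝒟 Rr x₁ τ * NL 𝒟 lam v₀ x₁ y₁ ε τ := by
    intro z hz
    have h4 := (Prod.ext_iff.1 (mem_filter.1 hz).2)
    rw [show 𝒟.c2 x₁ z = τ from h4.1, show lam v₀ x₁ z = ε from h4.2]
  rw [Finset.sum_congr rfl h3, Finset.sum_const, nsmul_eq_mul]
  have h5 : ((B.filter fun z => (𝒟.c2 x₁ z, lam v₀ x₁ z) = (τ, ε)).card : ℝ) =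
      NL 𝒟 lam v₀ x₁ y₁ ε τ := by
    rw [NL]
    congr 2
    ext t
    rw [mem_filter, mem_filter, hBm, Prod.ext_iff]
    simp only [mem_univ, true_and]
  rw [h5]
  ring

theorem phi : PhiStmt := by
  intro V ι _ _ _ k 𝒟 hk D hD1 hD Rr hR lam hl v₀ x₁ y₁ Ξ hx hv hy hΞ p p' p₁ p'₁ hp hp' hp₁ hp'₁
  set α := 𝒟.c2 v₀ x₁ with hα
  set β := 𝒟.c2 v₀ y₁ with hβ
  set T := (𝒟.cls (𝒟.c1 y₁)).image (fun t => 𝒟.c2 x₁ t) with hT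
  have hp0 : 0 < p := by rw [hp]; exact_mod_cast 𝒟.cls_pos v₀
  have hp'0 : 0 < p' := by rw [hp']; exact_mod_cast 𝒟.cls_pos y₁
  have hp₁0 : 0 < p₁ := by rw [hp₁]; exact_mod_cast 𝒟.val_pos v₀ x₁
  have hp'₁0 : 0 < p'₁ := by rw [hp'₁]; exact_mod_cast 𝒟.val_pos v₀ y₁
  have hD0 : (0 : ℝ) < D := by exact_mod_cast hD1
  have hpx : p = (𝒟.cls (𝒟.c1 x₁)).card := by rw [hx]; exact hp
  -- (A)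
  have A := coll_fix 𝒟 hk hR hl v₀ x₁ y₁
  rw [← hT] at A
  -- (B)
  have B : coll 𝒟 Rr x₁ y₁ = ∑ τ ∈ T, (𝒟.val x₁ τ : ℝ) * (rr 𝒟 Rr x₁ τ * (𝒟.val x₁ τ : ℝ)) := by
    rw [← sum_col 𝒟 (by omega) x₁ (𝒟.c1 y₁) fun τ => rr 𝒟 Rr x₁ τ * (𝒟.val x₁ τ : ℝ), coll]
    refine Finset.sum_congr rfl fun z _ => ?_
    rw [rr_eq 𝒟 hR]
  -- (C)
  have C : ∑ τ ∈ T, (𝒟.val x₁ τ : ℝ) = p' := by
    have h1 := sum_col 𝒟 (by omega) x₁ (𝒟.c1 y₁) fun _ => (1 : ℝ)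
    simp only [mul_one] at h1
    rw [← hT] at h1
    rw [← h1, Finset.sum_const, nsmul_eq_mul, mul_one, hp']
  have Tmem : ∀ τ ∈ T, ∃ z, 𝒟.c1 z = 𝒟.c1 y₁ ∧ 𝒟.c2 x₁ z = τ := by
    intro τ hτ
    obtain ⟨z, hz, h⟩ := mem_image.1 hτ
    exact ⟨z, (𝒟.mem_cls _ _).1 hz, h⟩
  have kpos : ∀ τ ∈ T, (0 : ℝ) < 𝒟.val x₁ τ := by
    intro τ hτ
    obtain ⟨z, _, rfl⟩ := Tmem τ hτ
    exact_mod_cast 𝒟.val_pos x₁ z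
  have kle : ∀ τ ∈ T, (𝒟.val x₁ τ : ℝ) ≤ p' := by
    intro τ hτ
    rw [← C]
    exact Finset.single_le_sum (f := fun τ => (𝒟.val x₁ τ : ℝ)) (fun i _ => Nat.cast_nonneg _) hτ
  -- (D)
  have Dm : ∀ τ ∈ T, (NN 𝒟 v₀ x₁ y₁ τ - (𝒟.val x₁ τ : ℝ) * p'₁ / p') ^ 2 ≤
      p * p'₁ / (D * p₁) * (𝒟.val x₁ τ : ℝ) := by
    intro τ hτ
    obtain ⟨z, hz, rfl⟩ := Tmem τ hτ
    have h1 := mixN 𝒟 (by omega) hD hz hpx hp' hp₁ hp'₁ rfl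
    set q : ℝ := (𝒟.val x₁ (𝒟.c2 x₁ z) : ℝ) with hq
    set s : ℝ := NN 𝒟 v₀ x₁ y₁ (𝒟.c2 x₁ z) - q * p'₁ / p' with hs
    rw [div_mul_eq_mul_div, le_div_iff₀ (by positivity)]
    refine le_of_mul_le_mul_left ?_ hp₁0
    calc p₁ * (s ^ 2 * (D * p₁)) = D * (p₁ * s) ^ 2 := by ring
      _ ≤ (p * q) * (p₁ * p'₁) := h1
      _ = p₁ * (p * p'₁ * q) := by ring
  -- (F)
  have F : ∀ ε : ZMod 3, ∑ τ ∈ T, rr 𝒟 Rr x₁ τ * (3 * NL 𝒟 lam v₀ x₁ y₁ ε τ -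
      NN 𝒟 v₀ x₁ y₁ τ) ^ 2 ≤ p' / (p * p₁ ^ 2) * Ξ := by
    intro ε
    have h1 := hΞ ε
    have h2 : ∀ z t, ∑ v ∈ 𝒟.cls (𝒟.c1 v₀), chi (𝒟.c2 v z = α) * chi (𝒟.c2 v t = β) *
        ff Rr lam ε v z t = ∑ v, GG 𝒟 Rr lam α β ε v z t := by
      intro z t
      refine Finset.sum_subset (Finset.subset_univ _) fun v _ hv' => ?_
      by_contra h
      exact hv' ((𝒟.mem_cls _ _).2 (𝒟.c1_of_c2 (by omega) (GG_ne h).1).1)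
    simp only [h2] at h1
    rw [← hx, sumsq 𝒟 (by omega) _ (GG_inv 𝒟 (by omega) hR hl α β ε), ← hpx] at h1
    have h3 : ∀ t, rr 𝒟 Rr x₁ (𝒟.c2 x₁ t) * (p₁ * (3 * NL 𝒟 lam v₀ x₁ y₁ ε (𝒟.c2 x₁ t) -
        NN 𝒟 v₀ x₁ y₁ (𝒟.c2 x₁ t)) / (𝒟.val x₁ (𝒟.c2 x₁ t) : ℝ)) ^ 2 ≤
        (∑ v, GG 𝒟 Rr lam α β ε v x₁ t) ^ 2 := by
      intro t
      rw [rr_eq 𝒟 hR]
      by_cases h : Rr x₁ t
      · have h4 := dcN 𝒟 (by omega) hR hl hx hv hy h ε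
        rw [← hα, ← hβ, ← hp₁] at h4
        have h5 : (0 : ℝ) < 𝒟.val x₁ (𝒟.c2 x₁ t) := by exact_mod_cast 𝒟.val_pos x₁ t
        rw [chi_pos h, one_mul, ← h4, mul_div_cancel_left₀ _ h5.ne']
      · rw [chi_neg h, zero_mul]; exact sq_nonneg _
    have h6 := (Finset.sum_le_sum fun t (_ : t ∈ 𝒟.cls (𝒟.c1 y₁)) => h3 t)
    rw [sum_col 𝒟 (by omega) x₁ (𝒟.c1 y₁) fun τ => rr 𝒟 Rr x₁ τ * (p₁ * (3 *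
      NL 𝒟 lam v₀ x₁ y₁ ε τ - NN 𝒟 v₀ x₁ y₁ τ) / (𝒟.val x₁ τ : ℝ)) ^ 2, ← hT] at h6
    have h7 : p * ∑ τ ∈ T, (𝒟.val x₁ τ : ℝ) * (rr 𝒟 Rr x₁ τ * (p₁ * (3 *
      NL 𝒟 lam v₀ x₁ y₁ ε τ - NN 𝒟 v₀ x₁ y₁ τ) / (𝒟.val x₁ τ : ℝ)) ^ 2) ≤ Ξ :=
      (mul_le_mul_of_nonneg_left h6 hp0.le).trans h1
    have h8 : p * p₁ ^ 2 / p' * ∑ τ ∈ T, rr 𝒟 Rr x₁ τ * (3 * NL 𝒟 lam v₀ x₁ y₁ ε τ -
        NN 𝒟 v₀ x₁ y₁ τ) ^ 2 ≤ Ξ := by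
      refine le_trans ?_ h7
      rw [mul_div_assoc, mul_assoc]
      refine mul_le_mul_of_nonneg_left ?_ hp0.le
      rw [Finset.mul_sum]
      refine Finset.sum_le_sum fun τ hτ => ?_
      have k0 := kpos τ hτ
      have k1 := kle τ hτ
      set q : ℝ := (𝒟.val x₁ τ : ℝ) with hq
      set s : ℝ := 3 * NL 𝒟 lam v₀ x₁ y₁ ε τ - NN 𝒟 v₀ x₁ y₁ τ with hs
      have r0 : 0 ≤ rr 𝒟 Rr x₁ τ := chi_nonneg _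
      calc p₁ ^ 2 / p' * (rr 𝒟 Rr x₁ τ * s ^ 2) = (rr 𝒟 Rr x₁ τ * (p₁ * s) ^ 2) / p' := by ring
        _ ≤ (rr 𝒟 Rr x₁ τ * (p₁ * s) ^ 2) / q := by
            exact div_le_div_of_nonneg_left (mul_nonneg r0 (sq_nonneg _)) k0 k1
        _ = q * (rr 𝒟 Rr x₁ τ * (p₁ * s / q) ^ 2) := by
            field_simp
    calc ∑ τ ∈ T, rr 𝒟 Rr x₁ τ * (3 * NL 𝒟 lam v₀ x₁ y₁ ε τ - NN 𝒟 v₀ x₁ y₁ τ) ^ 2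
        = p' / (p * p₁ ^ 2) * (p * p₁ ^ 2 / p' * ∑ τ ∈ T, rr 𝒟 Rr x₁ τ *
          (3 * NL 𝒟 lam v₀ x₁ y₁ ε τ - NN 𝒟 v₀ x₁ y₁ τ) ^ 2) := by
          field_simp
      _ ≤ p' / (p * p₁ ^ 2) * Ξ := mul_le_mul_of_nonneg_left h8 (by positivity)
  -- the identity for the labels
  have E : ∀ τ, ∑ ε : ZMod 3, NL 𝒟 lam v₀ x₁ y₁ ε τ ^ 2 =
      1 / 3 * NN 𝒟 v₀ x₁ y₁ τ ^ 2 + 1 / 9 * ∑ ε : ZMod 3, (3 * NL 𝒟 lam v₀ x₁ y₁ ε τ -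
        NN 𝒟 v₀ x₁ y₁ τ) ^ 2 := by
    intro τ
    have h1 := sum_NL 𝒟 lam v₀ x₁ y₁ τ
    have h2 : ∑ ε : ZMod 3, (3 * NL 𝒟 lam v₀ x₁ y₁ ε τ - NN 𝒟 v₀ x₁ y₁ τ) ^ 2 =
        9 * ∑ ε : ZMod 3, NL 𝒟 lam v₀ x₁ y₁ ε τ ^ 2 - 6 * NN 𝒟 v₀ x₁ y₁ τ *
          ∑ ε : ZMod 3, NL 𝒟 lam v₀ x₁ y₁ ε τ + 3 * NN 𝒟 v₀ x₁ y₁ τ ^ 2 := by
      have h3 : (3 : ℝ) * NN 𝒟 v₀ x₁ y₁ τ ^ 2 = ∑ ε : ZMod 3, NN 𝒟 v₀ x₁ y₁ τ ^ 2 := by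
        rw [Finset.sum_const, Finset.card_univ, ZMod.card, nsmul_eq_mul]; norm_num
      rw [h3, Finset.mul_sum, Finset.mul_sum, ← Finset.sum_sub_distrib, ← Finset.sum_add_distrib]
      exact Finset.sum_congr rfl fun ε _ => by ring
    rw [h2, h1]
    ring
  -- the sum of the squares
  have S1 : ∑ τ ∈ T, rr 𝒟 Rr x₁ τ * NN 𝒟 v₀ x₁ y₁ τ ^ 2 ≤
      9 / 8 * (p'₁ / p') ^ 2 * coll 𝒟 Rr x₁ y₁ + 9 * (p * p' * p'₁) / (D * p₁) := by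
    have h1 : ∀ τ ∈ T, rr 𝒟 Rr x₁ τ * NN 𝒟 v₀ x₁ y₁ τ ^ 2 ≤
        9 / 8 * (p'₁ / p') ^ 2 * ((𝒟.val x₁ τ : ℝ) * (rr 𝒟 Rr x₁ τ * (𝒟.val x₁ τ : ℝ))) +
          9 * (p * p'₁ / (D * p₁)) * (𝒟.val x₁ τ : ℝ) := by
      intro τ hτ
      have h2 := Dm τ hτ
      have r0 : 0 ≤ rr 𝒟 Rr x₁ τ := chi_nonneg _
      have r1 : rr 𝒟 Rr x₁ τ ≤ 1 := chi_le_one _
      set q : ℝ := (𝒟.val x₁ τ : ℝ) with hq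
      set N : ℝ := NN 𝒟 v₀ x₁ y₁ τ with hN
      have h3 : N ^ 2 ≤ 9 / 8 * (p'₁ / p') ^ 2 * (q * q) + 9 * (p * p'₁ / (D * p₁)) * q := by
        have h4 : N ^ 2 ≤ 9 / 8 * (q * p'₁ / p') ^ 2 + 9 * (N - q * p'₁ / p') ^ 2 := by
          nlinarith [sq_nonneg (q * p'₁ / p' - 8 * (N - q * p'₁ / p'))]
        have h5 : 9 / 8 * (q * p'₁ / p') ^ 2 = 9 / 8 * (p'₁ / p') ^ 2 * (q * q) := by ring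
        rw [h5] at h4
        linarith
      have h6 : 0 ≤ 9 * (p * p'₁ / (D * p₁)) * q := by positivity
      calc rr 𝒟 Rr x₁ τ * N ^ 2
          ≤ rr 𝒟 Rr x₁ τ * (9 / 8 * (p'₁ / p') ^ 2 * (q * q) + 9 * (p * p'₁ / (D * p₁)) * q) :=
            mul_le_mul_of_nonneg_left h3 r0
        _ = 9 / 8 * (p'₁ / p') ^ 2 * (q * (rr 𝒟 Rr x₁ τ * q)) +
            rr 𝒟 Rr x₁ τ * (9 * (p * p'₁ / (D * p₁)) * q) := by ring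
        _ ≤ _ := by
            refine add_le_add (le_refl _) ?_
            exact mul_le_of_le_one_left h6 r1
    refine (Finset.sum_le_sum h1).trans (le_of_eq ?_)
    rw [Finset.sum_add_distrib, ← Finset.mul_sum, ← Finset.mul_sum, ← B, C]
    field_simp
  have S2 : ∑ τ ∈ T, rr 𝒟 Rr x₁ τ * ∑ ε : ZMod 3, (3 * NL 𝒟 lam v₀ x₁ y₁ ε τ -
      NN 𝒟 v₀ x₁ y₁ τ) ^ 2 ≤ 3 * (p' / (p * p₁ ^ 2) * Ξ) := by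
    have h1 : ∑ τ ∈ T, rr 𝒟 Rr x₁ τ * ∑ ε : ZMod 3, (3 * NL 𝒟 lam v₀ x₁ y₁ ε τ -
        NN 𝒟 v₀ x₁ y₁ τ) ^ 2 = ∑ ε : ZMod 3, ∑ τ ∈ T, rr 𝒟 Rr x₁ τ *
          (3 * NL 𝒟 lam v₀ x₁ y₁ ε τ - NN 𝒟 v₀ x₁ y₁ τ) ^ 2 := by
      simp only [Finset.mul_sum]
      exact Finset.sum_comm
    rw [h1]
    have h2 := Finset.sum_le_card_nsmul (univ : Finset (ZMod 3)) _ _ fun ε _ => F ε
    rw [Finset.card_univ, ZMod.card, nsmul_eq_mul] at h2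
    exact_mod_cast h2
  have h9 : ∑ τ ∈ T, rr 𝒟 Rr x₁ τ * ∑ ε : ZMod 3, NL 𝒟 lam v₀ x₁ y₁ ε τ ^ 2 =
      1 / 3 * (∑ τ ∈ T, rr 𝒟 Rr x₁ τ * NN 𝒟 v₀ x₁ y₁ τ ^ 2) +
        1 / 9 * ∑ τ ∈ T, rr 𝒟 Rr x₁ τ * ∑ ε : ZMod 3, (3 * NL 𝒟 lam v₀ x₁ y₁ ε τ -
          NN 𝒟 v₀ x₁ y₁ τ) ^ 2 := by
    rw [Finset.mul_sum, Finset.mul_sum, ← Finset.sum_add_distrib]
    refine Finset.sum_congr rfl fun τ _ => ?_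
    rw [E τ]
    ring
  rw [h9] at A
  refine A.trans ?_
  calc 1 / 3 * (∑ τ ∈ T, rr 𝒟 Rr x₁ τ * NN 𝒟 v₀ x₁ y₁ τ ^ 2) +
        1 / 9 * ∑ τ ∈ T, rr 𝒟 Rr x₁ τ * ∑ ε : ZMod 3, (3 * NL 𝒟 lam v₀ x₁ y₁ ε τ -
          NN 𝒟 v₀ x₁ y₁ τ) ^ 2
      ≤ 1 / 3 * (9 / 8 * (p'₁ / p') ^ 2 * coll 𝒟 Rr x₁ y₁ + 9 * (p * p' * p'₁) / (D * p₁)) +
        1 / 9 * (3 * (p' / (p * p₁ ^ 2) * Ξ)) := by
        linarith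
    _ = _ := by
        field_simp
        ring

end Vale.Agent.P319.S2.H807
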