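import Vale.Agent.P319.S2.H920.Spec
import Vale.Agent.P319.SC.Gro

/-! P319, exponent 1/2, piece A7: a block exists at the first light colour. -/

namespace Vale.Agent.P319.S2.H807

open Finset Vale.Agent.P319.SC Vale.Agent.P319.SC.H323 Vale.Agent.P319.S2.H920

set_option linter.all false

variable {V ι : Type} [Fintype V] [DecidableEq V] [DecidableEq ι] {k : ℕ}

theorem c4_perm (𝒟 : Cfg V ι k) (hk : 4 ≤ k) {a b c d a' b' c' d' : V}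
    (h : 𝒟.c4 a b c d = 𝒟.c4 a' b' c' d') : 𝒟.c4 c a b d = 𝒟.c4 c' a' b' d' := by
  have h0 := 𝒟.sub 4 4 hk hk (fun i => if i = 0 then 2 else if i = 3 then 3 else i - 1)
    (by intro i _; split_ifs <;> omega) _ _ h
  rw [𝒟.c4_eq hk, 𝒟.c4_eq hk] at h0
  simpa [ins] using h0

theorem two_le_val (𝒟 : Cfg V ι k) (hk : 3 ≤ k) {a b : V} (hab : 𝒟.c1 a = 𝒟.c1 b) (hne : a ≠ b) :
    2 ≤ 𝒟.val a (𝒟.c2 a b) := by
  have h1 := Gro.card_ne_one 𝒟 hk (ρ := 𝒟.c1 a) rfl hab.symm hne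
  have h2 := 𝒟.val_pos a b
  unfold Cfg.val at h2 ⊢
  omega

/-- `x` is not fixed over `y` -/
theorem not_fixed (ℱ : Cfg V ι (k + 1)) (hk : 3 ≤ k) {G : ℕ} {x y z : V}
    (hh : HeavyAt G ℱ y) (hz : ℱ.c2 x z = ℱ.c2 x y) (hne : z ≠ y)
    (hl : 2 ^ G * (ℱ.fix x).val y ((ℱ.fix x).c2 y z) ≤
      ((ℱ.fix x).cls ((ℱ.fix x).c1 y)).card) :
    2 ≤ ℱ.val y (ℱ.c2 y x) := by
  by_contra hcon
  have h0 := ℱ.val_pos y x
  have h1 : ℱ.val y (ℱ.c2 y x) = 1 := by omega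
  have u1 : ∀ a, ℱ.c2 y a = ℱ.c2 y x → a = x := by
    intro a ha
    obtain ⟨b, hb⟩ := card_eq_one.1 h1
    have e1 : a ∈ (univ.filter fun z => ℱ.c2 y z = ℱ.c2 y x) := mem_filter.2 ⟨mem_univ _, ha⟩
    have e2 : x ∈ (univ.filter fun z => ℱ.c2 y z = ℱ.c2 y x) := mem_filter.2 ⟨mem_univ _, rfl⟩
    rw [hb] at e1 e2
    rw [mem_singleton.1 e1, mem_singleton.1 e2]
  have h2 : ℱ.val y (ℱ.c2 y z) ≤ (ℱ.fix x).val y ((ℱ.fix x).c2 y z) := by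
    refine card_le_card fun t ht => ?_
    rw [mem_filter] at ht ⊢
    refine ⟨mem_univ _, ?_⟩
    rw [ℱ.fix_c2 (show 2 ≤ k by omega), ℱ.fix_c2 (show 2 ≤ k by omega)]
    obtain ⟨e, he⟩ := ℱ.ext2 (by omega) ht.2.symm
    have h3 := ℱ.c3_sub (by omega) (he x)
    have h4 := u1 (e x) h3.2.1.symm
    have h5 := he x
    rw [h4] at h5
    exact ℱ.c3_rot (by omega) (ℱ.c3_rot (by omega) h5.symm)
  have h3 : ((ℱ.fix x).cls ((ℱ.fix x).c1 y)).card ≤ (ℱ.cls (ℱ.c1 y)).card := by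
    refine card_le_card fun t ht => ?_
    rw [Cfg.mem_cls, ℱ.fix_c1 (show 1 ≤ k by omega), ℱ.fix_c1 (show 1 ≤ k by omega)] at ht
    rw [Cfg.mem_cls]
    exact (ℱ.c1_of_c2 (by omega) ht).2
  have h4 := hh z (ℱ.c1_of_c2 (by omega) hz).2 hne
  have h5 := Nat.mul_le_mul_left (2 ^ G) h2
  omega

/-- the block from `u₂, u₃, y` over `x` -/
theorem mk_block (ℱ : Cfg V ι (k + 1)) (hk : 6 ≤ k) {G : ℕ} {x u₂ u₃ y₀ : V}
    (h1 : 2 ≤ ℱ.val y₀ (ℱ.c2 y₀ x)) (hc : (ℱ.fix x).c1 u₂ = (ℱ.fix x).c1 y₀) (hne : u₂ ≠ y₀)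
    (hc3 : (ℱ.fix x).c2 u₂ u₃ = (ℱ.fix x).c2 u₂ y₀) (hne3 : u₃ ≠ y₀)
    (hK : (univ.filter fun t => (ℱ.fix x).c2 u₂ t = (ℱ.fix x).c2 u₂ y₀ ∧
      (ℱ.fix x).c2 u₃ t = (ℱ.fix x).c2 u₃ y₀).card * 2 ^ (2 * G) ≤
        2 * ((ℱ.fix x).cls ((ℱ.fix x).c1 y₀)).card) : IsBlock ℱ G x u₂ u₃ y₀ := by
  have fc1 : ∀ a, (ℱ.fix x).c1 a = ℱ.c2 x a := fun a => ℱ.fix_c1 (show 1 ≤ k by omega) x a
  have fc2 : ∀ a b, (ℱ.fix x).c2 a b = ℱ.c3 x a b := fun a b =>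
    ℱ.fix_c2 (show 2 ≤ k by omega) x a b
  have fc3 : ∀ a b c, (ℱ.fix x).c3 a b c = ℱ.c4 x a b c := fun a b c =>
    ℱ.fix_c3 (show 3 ≤ k by omega) x a b c
  have hcls : ((ℱ.fix x).cls ((ℱ.fix x).c1 y₀)).card ≤ (ℱ.cls (ℱ.c1 y₀)).card := by
    refine card_le_card fun t ht => ?_
    rw [Cfg.mem_cls, fc1, fc1] at ht
    rw [Cfg.mem_cls]
    exact (ℱ.c1_of_c2 (by omega) ht).2
  refine ⟨?_, ?_, h1, ?_, ?_⟩
  · refine le_trans (Nat.mul_le_mul_right _ (card_le_card fun t ht => ?_))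
      (hK.trans (Nat.mul_le_mul_left _ hcls))
    rw [mem_filter] at ht ⊢
    refine ⟨mem_univ _, ?_⟩
    have h2 := ℱ.c4_sub (by omega) ht.2
    rw [fc2, fc2, fc2, fc2]
    exact ⟨ℱ.c3_rot (by omega) h2.1, ℱ.c3_rot (by omega) h2.2.1⟩
  · rw [fc1, fc1] at hc
    have h2 := (ℱ.c1_of_c2 (by omega) hc).2
    have h3 : ({u₂, y₀} : Finset V) ⊆ ℱ.cls (ℱ.c1 y₀) := by
      intro t ht
      rw [mem_insert, mem_singleton] at ht
      rw [Cfg.mem_cls]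
      rcases ht with rfl | rfl
      · exact h2
      · rfl
    have h4 := card_le_card h3
    rw [card_pair hne] at h4
    exact h4
  · have h2 := two_le_val (ℱ.fix x) (show 3 ≤ k by omega) hc.symm hne.symm
    refine h2.trans (card_le_card fun t ht => ?_)
    rw [mem_filter, fc2, fc2] at ht
    rw [mem_filter]
    exact ⟨mem_univ _, ℱ.c3_rot (by omega) (ℱ.c3_rot (by omega) (ℱ.c3_swap (by omega) ht.2))⟩
  · obtain ⟨k', rfl⟩ : ∃ k', k = k' + 1 := ⟨k - 1, by omega⟩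
    have gc1 : ∀ a, ((ℱ.fix x).fix u₂).c1 a = (ℱ.fix x).c2 u₂ a := fun a =>
      Cfg.fix_c1 (m := k') (ℱ.fix x) (by omega) u₂ a
    have gc2 : ∀ a b, ((ℱ.fix x).fix u₂).c2 a b = (ℱ.fix x).c3 u₂ a b := fun a b =>
      Cfg.fix_c2 (m := k') (ℱ.fix x) (by omega) u₂ a b
    have h2 := two_le_val ((ℱ.fix x).fix u₂) (show 3 ≤ k' by omega) (a := y₀) (b := u₃)
      (by rw [gc1, gc1]; exact hc3.symm) hne3.symm
    refine h2.trans (card_le_card fun t ht => ?_)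
    rw [mem_filter, gc2, gc2, fc3, fc3] at ht
    rw [mem_filter]
    exact ⟨mem_univ _, c4_perm ℱ (by omega) ht.2⟩

theorem block_of (hUp : H920.UpMixStmt) : H920.BlockStmt := by
  intro V ι _ _ _ G l X ℱ x hG hl hBR hCl hHeavy hx hnot
  have fc1 : ∀ a, (ℱ.fix x).c1 a = ℱ.c2 x a := fun a => ℱ.fix_c1 (show 1 ≤ l by omega) x a
  have fc2 : ∀ a b, (ℱ.fix x).c2 a b = ℱ.c3 x a b := fun a b =>
    ℱ.fix_c2 (show 2 ≤ l by omega) x a b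
  unfold Heavy at hnot
  push Not at hnot
  obtain ⟨y, hyX, hnot⟩ := hnot
  unfold HeavyAt at hnot
  push Not at hnot
  obtain ⟨z, hzc, hzy, hle⟩ := hnot
  set 𝒢 := ℱ.fix x with h𝒢
  set n := (𝒢.cls (𝒢.c1 y)).card with hn
  set s := 𝒢.val y (𝒢.c2 y z) with hs
  have hs2 : 2 ≤ s := two_le_val 𝒢 (by omega) hzc.symm hzy.symm
  have hn0 : 0 < n := 𝒢.cls_pos y
  have hfix : 2 ≤ ℱ.val y (ℱ.c2 y x) := by
    refine not_fixed ℱ (by omega) (hHeavy y hyX) ?_ hzy hle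
    rw [← fc1, ← fc1]; exact hzc
  -- all points of the class
  have hfix' : ∀ y₀, 𝒢.c1 y₀ = 𝒢.c1 y → 2 ≤ ℱ.val y₀ (ℱ.c2 y₀ x) := by
    intro y₀ h
    rw [fc1, fc1] at h
    rw [ℱ.c2_swap (by omega) h, ℱ.val_eq (by omega) (ℱ.c1_of_c2 (by omega) h).2]
    exact hfix
  have hX : ∀ t, 𝒢.c1 t = 𝒢.c1 y → t ∈ X := by
    intro t h
    rw [fc1, fc1] at h
    exact hCl y t (ℱ.c1_of_c2 (by omega) h).2.symm hyX
  rcases Nat.lt_or_ge (2 * n) (s * 2 ^ (2 * G)) with hcase | hcase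
  · -- dense case
    set X2 := univ.filter fun w => 𝒢.c2 y w = 𝒢.c2 y z with hX2
    have hX2c : X2.card = s := rfl
    have hX2m : ∀ w, w ∈ X2 ↔ 𝒢.c2 y w = 𝒢.c2 y z := fun w => by
      rw [hX2, mem_filter]; simp
    have hX2s : X2 ⊆ 𝒢.cls (𝒢.c1 y) := by
      intro w hw
      rw [𝒢.mem_cls, (𝒢.c1_of_c2 (by omega) ((hX2m w).1 hw)).2, hzc]
    have hTr : 𝒢.c2 y z ∈ 𝒢.rels (𝒢.c1 y) (𝒢.c1 y) :=
      (𝒢.mem_rels _ _ _).2 ⟨y, z, rfl, hzc, rfl⟩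
    have b1 := bad_count 𝒢 (by omega) (hBR x) rfl hTr hX2s
    have b2 := hUp V ι l (2 ^ (6 * G + 5)) 𝒢 (𝒢.c1 y) (𝒢.c2 y z) y X2 (by omega) (hBR x) rfl hTr
      hX2s
    rw [← hs, hX2c, ← hn] at b1 b2
    set L1 := (𝒢.cls (𝒢.c1 y)).filter fun v => 2 * n * (X2.filter fun w => 𝒢.c2 v w =
      𝒢.c2 y z).card < s * s with hL1
    set L2 := (𝒢.cls (𝒢.c1 y)).filter fun v => 2 * (s * s) < n * (X2.filter fun w => 𝒢.c2 v w =
      𝒢.c2 y z).card with hL2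
    have hex : ∃ u₃ ∈ X2, u₃ ∉ L1 ∧ u₃ ∉ L2 := by
      by_contra hcon
      push Not at hcon
      have h1 : X2 ⊆ L1 ∪ L2 := by
        intro w hw
        rw [mem_union]
        by_cases h : w ∈ L1
        · exact Or.inl h
        · exact Or.inr (hcon w hw h)
      have h2 : s ≤ L1.card + L2.card := by
        rw [← hX2c]
        exact (card_le_card h1).trans (card_union_le _ _)
      have h3 : s * (s * s * 2 ^ (6 * G + 5)) ≤ 8 * n ^ 3 := by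
        calc s * (s * s * 2 ^ (6 * G + 5)) ≤ (L1.card + L2.card) * (s * s * 2 ^ (6 * G + 5)) :=
              Nat.mul_le_mul_right _ h2
          _ = L1.card * (s * s * 2 ^ (6 * G + 5)) + L2.card * (s * s * 2 ^ (6 * G + 5)) := by ring
          _ ≤ 4 * n ^ 3 + 4 * n ^ 3 := Nat.add_le_add b1 b2
          _ = 8 * n ^ 3 := by ring
      have h4 : (2 * n) ^ 3 ≤ (s * 2 ^ (2 * G)) ^ 3 := Nat.pow_le_pow_left hcase.le 3
      have h5 : (s * 2 ^ (2 * G)) ^ 3 * 2 ^ 5 = s * (s * s * 2 ^ (6 * G + 5)) := by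
        rw [mul_pow, ← pow_mul, pow_add, show 2 * G * 3 = 6 * G by ring]
        ring
      have h6 : 0 < n ^ 3 := Nat.pow_pos hn0
      have h7 : (2 * n) ^ 3 = 8 * n ^ 3 := by ring
      omega
    obtain ⟨u₃, hu₃, hu1, hu2⟩ := hex
    have hu₃c := hX2s hu₃
    have hne0 : 0 < (X2.filter fun w => 𝒢.c2 u₃ w = 𝒢.c2 y z).card := by
      by_contra h0
      refine hu1 (mem_filter.2 ⟨hu₃c, ?_⟩)
      have h1 : (X2.filter fun w => 𝒢.c2 u₃ w = 𝒢.c2 y z).card = 0 := by omega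
      rw [h1, mul_zero]
      exact Nat.mul_pos (by omega) (by omega)
    have hup : n * (X2.filter fun w => 𝒢.c2 u₃ w = 𝒢.c2 y z).card ≤ 2 * (s * s) := by
      by_contra h0
      exact hu2 (mem_filter.2 ⟨hu₃c, not_le.1 h0⟩)
    obtain ⟨y₀, hy₀⟩ := card_pos.1 hne0
    rw [mem_filter, hX2m] at hy₀
    have hy₀c : 𝒢.c1 y₀ = 𝒢.c1 y := (𝒢.c1_of_c2 (by omega) hy₀.1).2.trans hzc
    have hu₃c' : 𝒢.c1 u₃ = 𝒢.c1 y := (𝒢.mem_cls _ _).1 hu₃c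
    have hyy₀ : y ≠ y₀ := by
      intro h
      exact hzy.symm ((𝒢.eq_of_c2 (by omega) hy₀.1).1 h)
    have hu₃y₀ : u₃ ≠ y₀ := by
      intro h
      exact hzy.symm ((𝒢.eq_of_c2 (by omega) hy₀.2).1 h)
    refine ⟨x, hx, y, hyX, u₃, hX u₃ hu₃c', y₀, hX y₀ hy₀c, ?_⟩
    refine mk_block ℱ hl (hfix' y₀ hy₀c) hy₀c.symm hyy₀ (((hX2m u₃).1 hu₃).trans hy₀.1.symm)
      hu₃y₀ ?_
    have hKle : (univ.filter fun t => 𝒢.c2 y t = 𝒢.c2 y y₀ ∧ 𝒢.c2 u₃ t = 𝒢.c2 u₃ y₀).card ≤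
        (X2.filter fun w => 𝒢.c2 u₃ w = 𝒢.c2 y z).card := by
      refine card_le_card fun t ht => ?_
      rw [mem_filter] at ht
      rw [mem_filter, hX2m]
      exact ⟨ht.2.1.trans hy₀.1, ht.2.2.trans hy₀.2⟩
    rw [show (ℱ.fix x).c1 y₀ = 𝒢.c1 y from hy₀c]
    refine le_trans (Nat.mul_le_mul_right _ hKle) ?_
    set c := (X2.filter fun w => 𝒢.c2 u₃ w = 𝒢.c2 y z).card with hc
    refine Nat.le_of_mul_le_mul_left ?_ hn0
    calc n * (c * 2 ^ (2 * G)) = (n * c) * 2 ^ (2 * G) := by ring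
      _ ≤ (2 * (s * s)) * 2 ^ (2 * G) := Nat.mul_le_mul_right _ hup
      _ = 2 * ((2 ^ G * s) * (2 ^ G * s)) := by
          rw [show 2 * G = G + G by ring, pow_add]; ring
      _ ≤ 2 * (n * n) := Nat.mul_le_mul_left _ (Nat.mul_le_mul hle hle)
      _ = n * (2 * n) := by ring
  · -- light case
    have hex : ∃ u₃, 𝒢.c2 y u₃ = 𝒢.c2 y z ∧ u₃ ≠ z := by
      have h1 : 1 < (univ.filter fun w => 𝒢.c2 y w = 𝒢.c2 y z).card := hs2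
      obtain ⟨a, ha, b, hb, hab⟩ := Finset.one_lt_card.1 h1
      rw [mem_filter] at ha hb
      by_cases h : a = z
      · exact ⟨b, hb.2, fun h' => hab (h.trans h'.symm)⟩
      · exact ⟨a, ha.2, h⟩
    obtain ⟨u₃, hu₃, hu₃z⟩ := hex
    have hu₃c : 𝒢.c1 u₃ = 𝒢.c1 y := (𝒢.c1_of_c2 (by omega) hu₃).2.trans hzc
    refine ⟨x, hx, y, hyX, u₃, hX u₃ hu₃c, z, hX z hzc, ?_⟩
    refine mk_block ℱ hl (hfix' z hzc) hzc.symm hzy.symm hu₃ hu₃z ?_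
    rw [show (ℱ.fix x).c1 z = 𝒢.c1 y from hzc]
    refine le_trans (Nat.mul_le_mul_right _ (card_le_card (t := univ.filter fun w =>
      𝒢.c2 y w = 𝒢.c2 y z) fun t ht => ?_)) hcase
    rw [mem_filter] at ht ⊢
    exact ⟨mem_univ _, ht.2.1⟩

end Vale.Agent.P319.S2.H807
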