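import Vale.Agent.P319.S2.H510.Rel
import Vale.Agent.P319.SC.Gro

/-! P319, block S2: the singleton lemma and the pair bound for blocks. -/

namespace Vale.Agent.P319.S2.H807

open Finset Matrix Vale.Agent.P319.SC Vale.Agent.P319.SC.H323 Vale.Agent.P319.SC.H235
  Vale.Agent.P319.S2

set_option linter.all false

variable {V ι : Type} [Fintype V] [DecidableEq V] [DecidableEq ι] {k k' : ℕ}

/-- two points of one class are not both in bijection with a point -/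
theorem sing_disj (𝒟 : Cfg V ι k) (hk : 3 ≤ k) {y y' w : V} (hy : 𝒟.c1 y = 𝒟.c1 y')
    (hyy : y ≠ y') (h1 : 𝒟.val y (𝒟.c2 y w) = 1) (h2 : 𝒟.val w (𝒟.c2 w y') = 1) : False := by
  have u1 : ∀ a, 𝒟.c2 y a = 𝒟.c2 y w → a = w := by
    intro a ha
    obtain ⟨b, hb⟩ := card_eq_one.1 h1
    have e1 : a ∈ (univ.filter fun z => 𝒟.c2 y z = 𝒟.c2 y w) := mem_filter.2 ⟨mem_univ _, ha⟩
    have e2 : w ∈ (univ.filter fun z => 𝒟.c2 y z = 𝒟.c2 y w) := mem_filter.2 ⟨mem_univ _, rfl⟩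
    rw [hb] at e1 e2
    rw [mem_singleton.1 e1, mem_singleton.1 e2]
  have u2 : ∀ a, 𝒟.c2 w a = 𝒟.c2 w y' → a = y' := by
    intro a ha
    obtain ⟨b, hb⟩ := card_eq_one.1 h2
    have e1 : a ∈ (univ.filter fun z => 𝒟.c2 w z = 𝒟.c2 w y') := mem_filter.2 ⟨mem_univ _, ha⟩
    have e2 : y' ∈ (univ.filter fun z => 𝒟.c2 w z = 𝒟.c2 w y') :=
      mem_filter.2 ⟨mem_univ _, rfl⟩
    rw [hb] at e1 e2
    rw [mem_singleton.1 e1, mem_singleton.1 e2]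
  refine Gro.card_ne_one 𝒟 hk rfl hy.symm hyy ?_
  rw [card_eq_one]
  refine ⟨y', ?_⟩
  ext z
  rw [mem_filter, mem_singleton]
  constructor
  · rintro ⟨-, hz⟩
    obtain ⟨e, he⟩ := 𝒟.ext2 hk hz.symm
    have h3 := 𝒟.c3_sub hk (he w)
    have h4 := u1 (e w) h3.2.1.symm
    have h5 := h3.2.2
    rw [h4] at h5
    exact u2 z (𝒟.c2_swap (by omega) h5.symm)
  · rintro rfl
    exact ⟨mem_univ _, rfl⟩

/-- the points in bijection with `y` -/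
def badS (𝒟 : Cfg V ι k) (A : Finset V) (y : V) : Finset V :=
  A.filter fun w => 𝒟.val w (𝒟.c2 w y) = 1 ∧ 𝒟.val y (𝒟.c2 y w) = 1

theorem badS_card (𝒟 : Cfg V ι k) (hk : 3 ≤ k) {A : Finset V}
    (hA : ∀ a b, 𝒟.c1 a = 𝒟.c1 b → a ∈ A → b ∈ A) {y y' : V} (hy : 𝒟.c1 y = 𝒟.c1 y') :
    (badS 𝒟 A y).card = (badS 𝒟 A y').card := by
  obtain ⟨e, he⟩ := 𝒟.ext1 (by omega) hy
  have key : ∀ z, z ∈ badS 𝒟 A y ↔ e z ∈ badS 𝒟 A y' := by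
    intro z
    have h1 := he z
    have h2 := 𝒟.c2_swap (by omega) h1
    have h3 := (𝒟.c1_of_c2 (by omega) h1).2
    unfold badS
    rw [mem_filter, mem_filter, ← h1, ← h2, ← 𝒟.val_eq (by omega) h3, ← 𝒟.val_eq (by omega) hy]
    exact and_congr ⟨fun h => hA _ _ h3 h, fun h => hA _ _ h3.symm h⟩ Iff.rfl
  refine Finset.card_bij (fun z _ => e z) (fun z hz => (key z).1 hz) (fun a _ b _ h => e.injective h)
    fun z hz => ⟨e.symm z, (key _).2 (by rwa [e.apply_symm_apply]), e.apply_symm_apply z⟩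

theorem badS_bound (𝒟 : Cfg V ι k) (hk : 3 ≤ k) {A : Finset V}
    (hA : ∀ a b, 𝒟.c1 a = 𝒟.c1 b → a ∈ A → b ∈ A) (y : V) :
    (badS 𝒟 A y).card * (𝒟.cls (𝒟.c1 y)).card ≤ A.card := by
  have h1 : (𝒟.cls (𝒟.c1 y)).card * (badS 𝒟 A y).card =
      ((𝒟.cls (𝒟.c1 y)).biUnion fun y' => badS 𝒟 A y').card := by
    rw [Finset.card_biUnion]
    · rw [Finset.sum_const_nat]
      intro y' hy'
      exact badS_card 𝒟 hk hA ((𝒟.mem_cls _ _).1 hy')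
    · intro a ha b hb hab
      show Disjoint (badS 𝒟 A a) (badS 𝒟 A b)
      rw [Finset.disjoint_left]
      intro w hw hw'
      unfold badS at hw hw'
      rw [mem_filter] at hw hw'
      exact sing_disj 𝒟 hk (((𝒟.mem_cls _ _).1 ha).trans ((𝒟.mem_cls _ _).1 hb).symm) hab
        hw.2.2 hw'.2.1
  rw [mul_comm, h1]
  refine card_le_card fun w hw => ?_
  obtain ⟨y', -, h⟩ := mem_biUnion.1 hw
  exact (mem_filter.1 h).1

/-- **the singleton lemma**: among the allowed points `w` (colour of `(w, y)` over the base `𝒟`)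
those over which `y` becomes a singleton in the refinement `𝒟'` are rare. -/
theorem sing_bound (𝒟 : Cfg V ι k) (hk : 3 ≤ k) (𝒟' : Cfg V ι k') (hk' : 3 ≤ k')
    (hr1 : ∀ a b, 𝒟'.c1 a = 𝒟'.c1 b → 𝒟.c1 a = 𝒟.c1 b) {y w₀ : V} {n B : ℕ}
    (hn : (𝒟.cls (𝒟.c1 y)).card ≤ n)
    (hn' : ∀ w, 𝒟.c1 w = 𝒟.c1 w₀ → (𝒟'.cls (𝒟'.c1 w)).card < B * B)
    (hy : B ≤ (𝒟'.cls (𝒟'.c1 y)).card)
    (hB : ∀ w, 2 ≤ 𝒟'.val y (𝒟'.c2 y w) → B ≤ 𝒟'.val y (𝒟'.c2 y w))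
    (hK : B ≤ 𝒟.val w₀ (𝒟.c2 w₀ y)) :
    (univ.filter fun w => 𝒟.c2 w y = 𝒟.c2 w₀ y ∧ 𝒟'.val w (𝒟'.c2 w y) = 1).card * (B * B) ≤
      n * (univ.filter fun w => 𝒟.c2 w y = 𝒟.c2 w₀ y).card := by
  set A := 𝒟.cls (𝒟.c1 w₀) with hA
  have h1 : (univ.filter fun w => 𝒟.c2 w y = 𝒟.c2 w₀ y ∧ 𝒟'.val w (𝒟'.c2 w y) = 1) ⊆
      badS 𝒟' A y := by
    intro w hw
    rw [mem_filter] at hw
    have hwA : 𝒟.c1 w = 𝒟.c1 w₀ := (𝒟.c1_of_c2 (by omega) hw.2.1).1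
    unfold badS
    rw [mem_filter]
    refine ⟨(𝒟.mem_cls _ _).2 hwA, hw.2.2, ?_⟩
    have h2 := 𝒟'.val_swap (by omega) w y
    rw [hw.2.2, mul_one] at h2
    have h3 := hn' w hwA
    rw [h2] at h3
    by_contra h4
    have h5 := 𝒟'.val_pos y w
    have h6 := hB w (by omega)
    have h7 := Nat.mul_le_mul hy h6
    omega
  have h2 := badS_bound 𝒟' hk' (A := A) (fun a b hab ha => by
    rw [hA, 𝒟.mem_cls] at ha ⊢
    rw [← hr1 _ _ hab, ha]) y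
  have h3 : (univ.filter fun w => 𝒟.c2 w y = 𝒟.c2 w₀ y).card = 𝒟.val y (𝒟.c2 y w₀) := by
    rw [Cfg.val]
    congr 1
    ext w
    simp only [mem_filter, mem_univ, true_and]
    exact 𝒟.c2_swap_iff (by omega)
  have h4 := 𝒟.val_swap (by omega) w₀ y
  rw [← hA] at h4
  rw [h3]
  calc (univ.filter fun w => 𝒟.c2 w y = 𝒟.c2 w₀ y ∧ 𝒟'.val w (𝒟'.c2 w y) = 1).card * (B * B)
      ≤ (badS 𝒟' A y).card * (B * B) := Nat.mul_le_mul_right _ (card_le_card h1)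
    _ = ((badS 𝒟' A y).card * B) * B := by ring
    _ ≤ ((badS 𝒟' A y).card * (𝒟'.cls (𝒟'.c1 y)).card) * B :=
        Nat.mul_le_mul_right _ (Nat.mul_le_mul_left _ hy)
    _ ≤ A.card * B := Nat.mul_le_mul_right _ h2
    _ ≤ A.card * 𝒟.val w₀ (𝒟.c2 w₀ y) := Nat.mul_le_mul_left _ hK
    _ = (𝒟.cls (𝒟.c1 y)).card * 𝒟.val y (𝒟.c2 y w₀) := h4
    _ ≤ n * 𝒟.val y (𝒟.c2 y w₀) := Nat.mul_le_mul_right _ hn

/-- the blocks at `y` -/
def ZZ (𝒟 : Cfg V ι k) (κ : ι) (y : V) : Finset (V × V × V) :=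
  univ.filter fun u => 𝒟.c4 u.1 u.2.1 u.2.2 y = κ

/-- the number of blocks at `y` and `y'` depends on the colour of the pair -/
theorem zz_inv (𝒟 : Cfg V ι k) (hk : 5 ≤ k) (κ : ι) {y y' z z' : V}
    (h : 𝒟.c2 y y' = 𝒟.c2 z z') :
    (ZZ 𝒟 κ y ∩ ZZ 𝒟 κ y').card = (ZZ 𝒟 κ z ∩ ZZ 𝒟 κ z').card := by
  set F : (ℕ → V) → ℕ := fun v => if 𝒟.c4 (v 2) (v 3) (v 4) (v 0) = κ ∧
    𝒟.c4 (v 2) (v 3) (v 4) (v 1) = κ then 1 else 0 with hF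
  have hF5 : 𝒟.InvF 5 F := by
    intro v w hvw
    have h1 := 𝒟.sub 4 5 (by omega) hk (fun i => if i = 3 then 0 else i + 2)
      (by intro i hi; split_ifs <;> omega) v w hvw
    have h2 := 𝒟.sub 4 5 (by omega) hk (fun i => if i = 3 then 1 else i + 2)
      (by intro i hi; split_ifs <;> omega) v w hvw
    rw [𝒟.c4_eq (by omega), 𝒟.c4_eq (by omega)] at h1 h2
    simp only [Function.comp] at h1 h2
    norm_num at h1 h2
    simp only [hF]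
    rw [h1, h2]
  have hF4 := hF5.sum (by omega)
  have hF3 := hF4.sum (by omega)
  have hF2 := hF3.sum (by omega)
  have e : ∀ a b : V, (ZZ 𝒟 κ a ∩ ZZ 𝒟 κ b).card =
      ∑ u, ∑ v, ∑ w, F (ins 4 (ins 3 (ins 2 (ins 1 (fun _ => a) b) u) v) w) := by
    intro a b
    have e1 : ZZ 𝒟 κ a ∩ ZZ 𝒟 κ b = univ.filter fun u : V × V × V =>
        𝒟.c4 u.1 u.2.1 u.2.2 a = κ ∧ 𝒟.c4 u.1 u.2.1 u.2.2 b = κ := by
      ext u
      simp only [ZZ, mem_inter, mem_filter, mem_univ, true_and]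
    rw [e1, Finset.card_filter, ← Finset.univ_product_univ, Finset.sum_product]
    refine Finset.sum_congr rfl fun u _ => ?_
    rw [← Finset.univ_product_univ, Finset.sum_product]
    refine Finset.sum_congr rfl fun v _ => Finset.sum_congr rfl fun w _ => ?_
    simp only [hF, ins]
    norm_num
  rw [e, e]
  exact hF2 _ _ h

/-- **the pair bound** -/
theorem step_pair (𝒟 : Cfg V ι k) (hk : 5 ≤ k) (u₁ u₂ u₃ y₀ : V) {y y' : V} :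
    (ZZ 𝒟 (𝒟.c4 u₁ u₂ u₃ y₀) y ∩ ZZ 𝒟 (𝒟.c4 u₁ u₂ u₃ y₀) y').card * 𝒟.val y (𝒟.c2 y y') ≤
      (ZZ 𝒟 (𝒟.c4 u₁ u₂ u₃ y₀) y).card *
        (univ.filter fun z => 𝒟.c4 u₁ u₂ u₃ z = 𝒟.c4 u₁ u₂ u₃ y₀).card := by
  set κ := 𝒟.c4 u₁ u₂ u₃ y₀ with hκ
  have h1 : (ZZ 𝒟 κ y ∩ ZZ 𝒟 κ y').card * 𝒟.val y (𝒟.c2 y y') =
      ∑ z ∈ univ.filter (fun z => 𝒟.c2 y z = 𝒟.c2 y y'), (ZZ 𝒟 κ y ∩ ZZ 𝒟 κ z).card := by
    rw [Cfg.val, mul_comm, Finset.sum_const_nat]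
    intro z hz
    exact zz_inv 𝒟 hk κ (mem_filter.1 hz).2
  have h2 : ∑ z, (ZZ 𝒟 κ y ∩ ZZ 𝒟 κ z).card =
      ∑ u ∈ ZZ 𝒟 κ y, (univ.filter fun z => 𝒟.c4 u.1 u.2.1 u.2.2 z = κ).card := by
    simp only [Finset.card_filter]
    rw [Finset.sum_comm]
    refine Finset.sum_congr rfl fun z _ => ?_
    rw [← Finset.card_filter]
    congr 1
    ext u
    simp only [ZZ, mem_inter, mem_filter, mem_univ, true_and]
  have h3 : ∀ u ∈ ZZ 𝒟 κ y, (univ.filter fun z => 𝒟.c4 u.1 u.2.1 u.2.2 z = κ).card =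
      (univ.filter fun z => 𝒟.c4 u₁ u₂ u₃ z = κ).card := by
    intro u hu
    have h4 : 𝒟.c4 u.1 u.2.1 u.2.2 y = 𝒟.c4 u₁ u₂ u₃ y₀ := (mem_filter.1 hu).2
    have h5 := (𝒟.c4_sub (by omega) h4).1
    obtain ⟨e, he⟩ := 𝒟.ext3 (by omega) h5
    refine Finset.card_bij (fun z _ => e z) ?_ (fun a _ b _ h => e.injective h) ?_
    · intro z hz
      rw [mem_filter] at hz ⊢
      exact ⟨mem_univ _, by rw [← he]; exact hz.2⟩
    · intro z hz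
      refine ⟨e.symm z, ?_, e.apply_symm_apply z⟩
      rw [mem_filter] at hz ⊢
      refine ⟨mem_univ _, ?_⟩
      rw [he, e.apply_symm_apply]
      exact hz.2
  rw [Finset.sum_const_nat h3] at h2
  rw [h1, ← h2]
  exact Finset.sum_le_sum_of_subset (Finset.subset_univ _)

end Vale.Agent.P319.S2.H807
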